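import Vale.Agent.P286EXB.Pt

/-!
# The bar construction as a gauge family
-/

set_option linter.all false

namespace Vale.Agent.P286EX

open CategoryTheory TensorProduct Vale.Agent.P286 Vale.Agent.P286.St Vale.Agent.P286.H847
  Vale.Agent.P286.H847.SGD Vale.Agent.P286.H353 Vale.Agent.P286.H710 Vale.Agent.P286.H697
open Vale.Agent.P286EK (DGA NHom AHom RM DD DM mdc mqis mh mo Bar UU bm bh bD RHom ssz)

noncomputable section

universe u v

variable {T : TSite} {S : GS T} {I : Type u} [Category.{v} I]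

/-- A gauge family with a right action of a diagram of DG algebras. -/
structure BD (S : GS T) (ix : T.C ⥤ I) (A : DD I) : Type 1 where
  P : HG S
  ρ : ∀ X, RA (P.K X) (A.A (ix.obj X))
  ra_i : ∀ X a b p, P.i X a ((ρ X).ra b p) = (ρ X).ra b (P.i X a p)
  t_ra : ∀ {X Y : T.C} (φ : X ⟶ Y) b p,
    (P.t φ).f ((ρ X).ra b p) = (ρ Y).ra ((A.τ (ix.map φ)).f b) ((P.t φ).f p)

namespace BD

variable {ix : T.C ⥤ I} {A : DD I} (B : BD S ix A)

theorem sg_i (X : T.C) (a : Fin 3) (p : (B.P.K X).M.V) :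
    (B.ρ X).sg (B.P.i X a p) = - B.P.i X a ((B.ρ X).sg p) := by
  have h := (B.ρ X).sg_deg (B.ρ X) ((B.P.i X a).restrictScalars ℂ) (-1)
    (fun m x hx => B.P.i_gr X a m x hx) p
  simpa using h

theorem t_sg {X Y : T.C} (φ : X ⟶ Y) (p : (B.P.K X).M.V) :
    (B.P.t φ).f ((B.ρ X).sg p) = (B.ρ Y).sg ((B.P.t φ).f p) :=
  ((B.ρ X).sg_zero (B.ρ Y) (B.P.t φ).f (B.P.t φ).deg p).symm

theorem sg_lie (X : T.C) (a : Fin 3) (p : (B.P.K X).M.V) :
    (B.ρ X).sg (lieOp _ (B.P.i X a) p) = lieOp _ (B.P.i X a) ((B.ρ X).sg p) := by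
  simp only [lieOp_apply, map_add, (B.ρ X).sg_d, B.sg_i, map_neg, neg_neg]

theorem ra_lie (X : T.C) (a : Fin 3) (b : (A.A (ix.obj X)).R) (p : (B.P.K X).M.V) :
    lieOp _ (B.P.i X a) ((B.ρ X).ra b p) = (B.ρ X).ra b (lieOp _ (B.P.i X a) p) := by
  simp only [lieOp_apply, map_add, B.ra_i, (B.ρ X).leib, B.sg_i, map_neg]
  abel

/-- The transition maps, as morphisms of right modules. -/
def tR {X Y : T.C} (φ : X ⟶ Y) : RHom (A.τ (ix.map φ)).n (B.ρ X).rm (B.ρ Y).rm :=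
  ⟨B.P.t φ, B.t_sg φ, B.t_ra φ⟩

variable (N : DM A)

/-- The bar construction over `X`. -/
abbrev bK (X : T.C) : DGM (T.R X) := (B.ρ X).barK (N.M (ix.obj X))

/-- The transition maps of the bar construction. -/
def bt {X Y : T.C} (φ : X ⟶ Y) : GD.Hom (B.bK N X).M (B.bK N Y).M :=
  bh (B.tR φ) (N.ρ (ix.map φ)) (N.ρ_act (ix.map φ))

/-- The map of the second factor. -/
def ut {i j : I} (α : i ⟶ j) : (UU (N.M i)).V →ₗ[ℂ] (UU (N.M j)).V :=
  P286EK.U0.mp (P286EK.al (A.τ α).n 0) (N.ρ α).f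

theorem bt_eq {X Y : T.C} (φ : X ⟶ Y) :
    (B.bt N φ).f = TensorProduct.map (B.P.t φ).f (ut N (ix.map φ)) :=
  congrArg (TensorProduct.map · (ut N (ix.map φ)))
    (LinearMap.ext fun p => congrArg (B.P.t φ).f (P286EK.ssz_zero (E := (B.ρ X).rm.toSGD) p))

theorem bt_tmul {X Y : T.C} (φ : X ⟶ Y) (p : (B.P.K X).M.V) (x : (UU (N.M (ix.obj X))).V) :
    (B.bt N φ).f (p ⊗ₜ[ℂ] x) = (B.P.t φ).f p ⊗ₜ[ℂ] ut N (ix.map φ) x :=
  LinearMap.congr_fun (B.bt_eq N φ) _

theorem ut_id (i : I) : ut N (𝟙 i) = LinearMap.id := LinearMap.ext fun x =>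
  P286EK.U0.mp_id (fun a => (P286EK.al_zero _ a).trans (A.τ_id _ a)) (N.ρ_id _) x

theorem ut_comp {i j k : I} (α : i ⟶ j) (β : j ⟶ k) : ut N (α ≫ β) = (ut N β).comp (ut N α) :=
  LinearMap.ext fun x => (P286EK.U0.mp_mp (P286EK.al_al (τ'' := (A.τ (α ≫ β)).n)
    (fun a => (A.τ_comp _ _ a).symm) (zero_add 0)) (fun x => (N.ρ_comp _ _ x).symm) x).symm

theorem lie_bar (X : T.C) (a : Fin 3) : lieOp (B.bK N X) ((B.ρ X).lop _ (B.P.i X a)) =
    (B.ρ X).lop _ (lieOp _ (B.P.i X a)) := (B.ρ X).lieOp_lop _ _ (B.sg_i X a) (B.ra_i X a)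

/-- The bar construction, as a gauge family. -/
def barH : HG S where
  K := B.bK N
  i X a := (B.ρ X).lop _ (B.P.i X a)
  i_gr X a m z hz := RA.rT_mem _ (s := (B.P.i X a).restrictScalars ℂ) (k := -1)
    (fun m x hx => B.P.i_gr X a m x hx) rfl hz
  i_act X a v z := lfT_comm (a := actL _ v) (B.P.i_act X a v) z
  i_i X a b z := lfT_anti (B.P.i_i X a b) z
  i_br X a b z := by
    rw [lie_bar]
    exact lfT_br (B.P.i_br X a b) z
  t := B.bt N
  t_smul φ a z := by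
    rw [bt_eq]
    exact tmb_smul _ (B.P.t_smul φ a) z
  t_id X z := by
    rw [bt_eq, ix.map_id, ut_id, show (B.P.t (𝟙 X)).f = LinearMap.id from
      LinearMap.ext (B.P.t_id X), TensorProduct.map_id]
    rfl
  t_comp φ ψ z := by
    rw [bt_eq, bt_eq, bt_eq, ix.map_comp, ut_comp, show (B.P.t (φ ≫ ψ)).f =
      (B.P.t ψ).f.comp (B.P.t φ).f from LinearMap.ext (B.P.t_comp φ ψ), TensorProduct.map_comp]
    rfl
  t_i φ b z := by
    rw [bt_eq]
    exact tmb_i _ (B.P.t_i φ b) z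
  t_act {X Y} φ w n c v h z := by
    simp only [lie_bar]
    rw [bt_eq]
    exact tmb_act (w := actL _ w) (v := fun k => actL _ (v k)) _ (B.P.t_act φ w n c v h) z

theorem barH_K (X : T.C) : (B.barH N).K X = B.bK N X := rfl

theorem barH_t {X Y : T.C} (φ : X ⟶ Y) : (B.barH N).t φ = B.bt N φ := rfl

theorem barH_i (X : T.C) (a : Fin 3) : (B.barH N).i X a = (B.ρ X).lop _ (B.P.i X a) := rfl

variable {N} {N' : DM A}

/-- The map of the second factor defined by a cochain. -/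
def uc {n : ℤ} (z : DM.Coch N N' n) (i : I) : (UU (N.M i)).V →ₗ[ℂ] (UU (N'.M i)).V :=
  P286EK.U0.mp (P286EK.al (NHom.id _) n) (z.f i)

/-- The components of the bar construction of a cochain. -/
def bc {n : ℤ} (z : DM.Coch N N' n) (X : T.C) : (B.bK N X).M.V →ₗ[ℂ] (B.bK N' X).M.V :=
  bm (P := (B.ρ X).rm) (P' := (B.ρ X).rm) LinearMap.id (NHom.id _) n (z.f (ix.obj X))

theorem bc_eq {n : ℤ} (z : DM.Coch N N' n) (X : T.C) :
    B.bc z X = TensorProduct.map (ssz (B.ρ X).rm.toSGD n) (uc z (ix.obj X)) := rfl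

theorem bc_tmul {n : ℤ} (z : DM.Coch N N' n) (X : T.C) (p : (B.P.K X).M.V)
    (x : (UU (N.M (ix.obj X))).V) :
    B.bc z X (p ⊗ₜ[ℂ] x) = ssz (B.ρ X).rm.toSGD n p ⊗ₜ[ℂ] uc z (ix.obj X) x := rfl

theorem bc_co {n : ℤ} (z : DM.Coch N N' n) : HG.IsCo (B.barH N) (B.barH N') n (B.bc z) where
  deg X m w hw := P286EK.bm_mem (k := 0) _ (fun _ p hp => by simpa using hp) (z.deg _) (by simp) hw
  smul X a w := tmb_smul _ ((B.ρ X).ssz_deg ((LinearMap.lsmul _ _ a).restrictScalars ℂ)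
    ((B.ρ X).sg_smul a) n) w
  act X v w := tmb_rT _ (k := 1) (fun p => ((B.ρ X).ssz_deg (actL _ v) ((B.ρ X).sg_act v) n p).trans
    (one_smul _ _).symm) w |>.trans (one_smul _ _)
  i X a w := tmb_rT _ ((B.ρ X).ssz_odd' ((B.P.i X a).restrictScalars ℂ) (B.sg_i X a) n) w
  lie X a w := by
    change B.bc z X (lieOp (B.bK N X) ((B.ρ X).lop _ (B.P.i X a)) w) =
      lieOp (B.bK N' X) ((B.ρ X).lop _ (B.P.i X a)) (B.bc z X w)
    rw [lie_bar, lie_bar]
    exact (tmb_rT _ (k := 1) (fun p => ((B.ρ X).ssz_deg ((lieOp _ (B.P.i X a)).restrictScalars ℂ)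
      (B.sg_lie X a) n p).trans (one_smul _ _).symm) w).trans (one_smul _ _)
  tr {X Y} φ w := (P286EK.bm_bm (h := (B.tR φ).t.f) (τ'' := (A.τ (ix.map φ)).n)
      (w := (z.f _).comp (N.ρ (ix.map φ)).f) (zero_add n)
      (fun p => (P286EK.ssz_comm (B.tR φ).sg n p).symm) (fun _ => rfl) (fun _ => rfl) w).trans
    (P286EK.bm_bm (add_zero n) (fun p => by rw [P286EK.ssz_zero, P286EK.ssz_zero]; rfl)
      (fun _ => rfl) (fun x => (z.tr (ix.map φ) x).symm) w).symm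

/-- The map on cochains. -/
def bcL (N N' : DM A) (n : ℤ) : DM.Coch N N' n →ₗ[ℂ] (hgF S).P (B.barH N) (B.barH N') n where
  toFun z := ⟨B.bc z, B.bc_co z⟩
  map_add' a b := Subtype.ext (funext fun X =>
    P286EK.bm_add _ _ n (a.f (ix.obj X)) (b.f (ix.obj X)))
  map_smul' c a := Subtype.ext (funext fun X => P286EK.bm_smul _ _ n c (a.f (ix.obj X)))

theorem bcL_zero (N N' : DM A) (n : ℤ) : B.bcL N N' n 0 = 0 := map_zero _

theorem bc_one (X : T.C) (x : (B.bK N X).M.V) : B.bc (DM.Coch.one N) X x = x :=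
  (P286EK.bm_rT _ (fun _ => rfl) (fun _ => rfl) x).trans
    (LinearMap.congr_fun (LinearMap.rTensor_id _ _) x)

theorem bc_cmp {N'' : DM A} {m n p : ℤ} (h : m + n = p) (a : DM.Coch N N' m)
    (b : DM.Coch N' N'' n) (X : T.C) (x : (B.bK N X).M.V) :
    B.bc (a.cmp b h) X x = B.bc b X (B.bc a X x) :=
  (P286EK.bm_bm (h := LinearMap.id) (τ'' := NHom.id _) (w := (a.cmp b h).f (ix.obj X)) h
    (fun _ => rfl) (fun _ => rfl) (fun _ => rfl) x).symm

theorem bc_d {m : ℤ} (a : DM.Coch N N' m) (X : T.C) (x : (B.bK N X).M.V) :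
    B.bc (P286EK.mdl m (m + 1) a) X x =
      (B.bK N' X).M.d (B.bc a X x) - (m.negOnePow : ℤ) • B.bc a X ((B.bK N X).M.d x) := by
  have h := P286EK.bD_bm (P := (B.ρ X).rm) (P' := (B.ρ X).rm) (f := LinearMap.id)
    (g := LinearMap.id) (f' := 0) (τ := NHom.id _) (fun _ => rfl) (fun _ _ => rfl)
    (fun p => by simp) (a.act (ix.obj X)) (P286EK.mdl_f rfl a (ix.obj X)) x
  rw [P286EK.bm_zero'] at h
  exact eq_sub_of_add_eq' ((congrArg (· + _) (add_zero _).symm).trans h.symm)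

/-- The bar construction, as a DG functor. -/
def barD : DGF (mdc A) (hgc S) where
  obj := B.barH
  map {N N'} n := B.bcL N N' n
  map_one N := (hgF S).ext' fun X x => B.bc_one X x
  map_comp h a b := (hgF S).ext' fun X x => B.bc_cmp h a b X x
  map_d {N N'} m n a := by
    by_cases h : m + 1 = n
    · refine (hgF S).ext' fun X x => Eq.trans ?_ ((hgF S).dif_f h _ X x).symm
      subst h
      exact B.bc_d a X x
    · refine Eq.trans ?_ ((hgF S).dif_ne h _).symm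
      exact (congrArg (B.bcL N N' n) (P286EK.mdl_ne h a)).trans (B.bcL_zero N N' n)

theorem barD_obj (N : DM A) : B.barD.obj N = B.barH N := rfl

theorem barD_map {n : ℤ} (z : DM.Coch N N' n) (X : T.C) :
    (B.barD.map (X := N) (Y := N') n z : (hgF S).P (B.barH N) (B.barH N') n).1 X = B.bc z X := rfl

/-- The bar construction preserves quasi-isomorphisms. -/
theorem qis_barD {N N' : Z0 (mdc A)} (a : N ⟶ N') (X : T.C) (h : GD.Qis (mh a (ix.obj X))) :
    GD.Qis ((hgF S).hom (B.barD.z0.map a) X) :=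
  P286EK.qis_bh (fun _ => rfl) (P286EK.RH.id (B.ρ X).rm) (mh a (ix.obj X))
    (P286EK.mh_act a (ix.obj X)) (B.ρ X).int (B.ρ X).int (GD.Qis.id _) h

end BD

section PD

variable {I : Type} [SmallCategory I] {D : P286E.CD I} {G : P286E.Grp} {s : ℂ} {K : GK G}
  {xd : XD D} {U : Rep K}

/-- The index functor. -/
@[reducible] def ixQ (D : P286E.CD I) (G : P286E.Grp) (s : ℂ) : (P286E.QS D G s).C ⥤ I where
  obj X := P286E.QO.i X
  map u := P286E.QM.α u
  map_id _ := rfl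
  map_comp _ _ := rfl

/-- The right action on the generator over `X`. -/
abbrev PD.rho (P : PD K xd s U) (X : P286E.QO D) : RA (P.P.K X) (P.A.A X.i) where
  sg := (P.sg X).restrictScalars ℂ
  sg_gr := P.sg_gr X
  int := P.int X
  ra := (LinearMap.restrictScalarsₗ ℂ (RQ G s X) _ _ ℂ).comp (P.ra X)
  ra_mul := P.ra_mul X
  leib := P.ra_d X
  ra_gr := P.ra_gr X
  ra_smul a r p := map_smul (P.ra X a) r p
  ra_act := P.ra_act X

/-- The generator with the right action. -/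
abbrev PD.bd (P : PD K xd s U) : BD (K.gs D s) (ixQ D G s) P.A where
  P := P.P
  ρ := P.rho
  ra_i X a b p := (P.ra_i X b a p).symm
  t_ra := P.ra_t

theorem PD.rho_sg (P : PD K xd s U) (X : P286E.QO D) (p : (P.P.K X).M.V) :
    (P.rho X).sg p = P.sg X p := rfl

theorem PD.rho_ra (P : PD K xd s U) (X : P286E.QO D) (a : (P.A.A X.i).R) (p : (P.P.K X).M.V) :
    (P.rho X).ra a p = P.ra X a p := rfl

/-- The bar construction with the generator. -/
abbrev barD (P : PD K xd s U) : DGF (mdc P.A) (hgc (K.gs D s)) := P.bd.barD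

end PD

end

end Vale.Agent.P286EX
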