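import Vale.Agent.P286EXB.Bar
import Vale.Agent.P286EX3.Pi

/-!
# The de Rham complex of the bar construction
-/

set_option linter.all false

namespace Vale.Agent.P286EX

open CategoryTheory TensorProduct Vale.Agent.P286 Vale.Agent.P286.St Vale.Agent.P286.H847
  Vale.Agent.P286.H847.SGD Vale.Agent.P286.H353 Vale.Agent.P286.H710 Vale.Agent.P286.H697
open Vale.Agent.P286EK (DGA NHom AHom RM DD DM mdc mqis mh mo Bar UU bm bh bD RHom ssz)

noncomputable section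

universe u v

section Gen

variable {R R' V V' U U' : Type} [CommRing R] [Algebra ℂ R] [CommRing R'] [Algebra ℂ R']
  [AddCommGroup V] [Module ℂ V] [Module R V] [IsScalarTower ℂ R V]
  [AddCommGroup V'] [Module ℂ V'] [Module R' V'] [IsScalarTower ℂ R' V']
  [AddCommGroup U] [Module ℂ U] [AddCommGroup U'] [Module ℂ U']

/-- The associativity isomorphism. -/
def asc (R V U : Type) [CommRing R] [Algebra ℂ R] [AddCommGroup V] [Module ℂ V] [Module R V]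
    [IsScalarTower ℂ R V] [AddCommGroup U] [Module ℂ U] :
    DR ℂ R V ⊗[ℂ] U ≃ₗ[Om ℂ R] DR ℂ R (V ⊗[ℂ] U) :=
  AlgebraTensorModule.assoc ℂ R (Om ℂ R) (Om ℂ R) V U

theorem asc_tmul (w : Om ℂ R) (p : V) (x : U) :
    asc R V U ((w ⊗ₜ[R] p) ⊗ₜ[ℂ] x) = w ⊗ₜ[R] (p ⊗ₜ[ℂ] x) := rfl

theorem asc_symm_tmul (w : Om ℂ R) (p : V) (x : U) :
    (asc R V U).symm (w ⊗ₜ[R] (p ⊗ₜ[ℂ] x)) = (w ⊗ₜ[R] p) ⊗ₜ[ℂ] x := rfl

theorem asc_csmul (c : ℂ) (z : DR ℂ R V ⊗[ℂ] U) : asc R V U (c • z) = c • asc R V U z := by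
  rw [← algebraMap_smul (Om ℂ R) c z, map_smul, algebraMap_smul]

/-- The associativity isomorphism as a `ℂ`-linear map. -/
def ascC (R V U : Type) [CommRing R] [Algebra ℂ R] [AddCommGroup V] [Module ℂ V] [Module R V]
    [IsScalarTower ℂ R V] [AddCommGroup U] [Module ℂ U] :
    DR ℂ R V ⊗[ℂ] U →ₗ[ℂ] DR ℂ R (V ⊗[ℂ] U) where
  toFun := asc R V U
  map_add' := map_add _
  map_smul' := asc_csmul

/-- The inverse of the associativity isomorphism as a `ℂ`-linear map. -/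
def ascI (R V U : Type) [CommRing R] [Algebra ℂ R] [AddCommGroup V] [Module ℂ V] [Module R V]
    [IsScalarTower ℂ R V] [AddCommGroup U] [Module ℂ U] :
    DR ℂ R (V ⊗[ℂ] U) →ₗ[ℂ] DR ℂ R V ⊗[ℂ] U where
  toFun := (asc R V U).symm
  map_add' := map_add _
  map_smul' c z := (asc R V U).injective (by
    rw [asc_csmul, LinearEquiv.apply_symm_apply, LinearEquiv.apply_symm_apply, RingHom.id_apply])

theorem ascC_apply (z : DR ℂ R V ⊗[ℂ] U) : ascC R V U z = asc R V U z := rfl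

theorem ascI_apply (z : DR ℂ R (V ⊗[ℂ] U)) : ascI R V U z = (asc R V U).symm z := rfl

theorem asc_ind {Q : DR ℂ R V ⊗[ℂ] U → Prop} (zero : Q 0)
    (tmul : ∀ w p x, Q ((w ⊗ₜ[R] p) ⊗ₜ[ℂ] x)) (add : ∀ x y, Q x → Q y → Q (x + y))
    (z : DR ℂ R V ⊗[ℂ] U) : Q z := by
  induction z using TensorProduct.induction_on with
  | zero => exact zero
  | add x y hx hy => exact add x y hx hy
  | tmul q x =>
    induction q using DR.induction with
    | zero => rw [zero_tmul]; exact zero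
    | tmul w p => exact tmul w p x
    | add p q hp hq => rw [add_tmul]; exact add _ _ hp hq

theorem asc_muE (w : Om ℂ R) (z : DR ℂ R V ⊗[ℂ] U) :
    asc R V U ((muE V w).rTensor U z) = w • asc R V U z := by
  rw [← map_smul]
  refine congrArg _ ?_
  induction z using TensorProduct.induction_on with
  | zero => simp
  | tmul q x => rfl
  | add x y hx hy => rw [map_add, hx, hy, smul_add]

theorem asc_nE (i : Fin 3 → V →ₗ[R] V) (θ : Fin 3 → Om ℂ R) (z : DR ℂ R V ⊗[ℂ] U) :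
    ascC R V U ((nE i θ).rTensor U z) = nE (fun a => lfT U (i a)) θ (ascC R V U z) := by
  induction z using asc_ind with
  | zero => simp only [map_zero]
  | tmul w p x =>
    simp only [ascC_apply, LinearMap.rTensor_tmul, nE_apply, asc_tmul, sgT_tmul, lfT_tmul,
      sum_tmul, map_sum, smul_tmul']
  | add x y hx hy => simp only [map_add, hx, hy]

theorem ex_rT {W : Type} [AddCommGroup W] [Module ℂ W] (N : Module.End ℂ W) (z : W ⊗[ℂ] U) :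
    (Gau.ex N).rTensor U z = Gau.ex (R := Module.End ℂ (W ⊗[ℂ] U)) (N.rTensor U) z := by
  induction z using TensorProduct.induction_on with
  | zero => simp only [map_zero]
  | tmul q x =>
    exact Gau.ex_inter ((TensorProduct.mk ℂ W U).flip x) (N := N) (N' := N.rTensor U)
      (fun _ => rfl) q
  | add x y hx hy => simp only [map_add, hx, hy]

theorem asc_eE (i : Fin 3 → V →ₗ[R] V) (θ : Fin 3 → Om ℂ R) (z : DR ℂ R V ⊗[ℂ] U) :
    asc R V U ((eE i θ).rTensor U z) = eE (fun a => lfT U (i a)) θ (asc R V U z) := by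
  rw [eE, ex_rT]
  exact Gau.ex_inter (ascC R V U) (asc_nE i θ) z

theorem asc_pbC (f : R →ₐ[ℂ] R') (t : V →ₗ[ℂ] V') (ht : ∀ (a : R) m, t (a • m) = f a • t m)
    (u : U →ₗ[ℂ] U') (τ : V ⊗[ℂ] U →ₗ[ℂ] V' ⊗[ℂ] U')
    (hτ : ∀ (a : R) m, τ (a • m) = f a • τ m) (h : ∀ p x, τ (p ⊗ₜ[ℂ] x) = t p ⊗ₜ[ℂ] u x)
    (z : DR ℂ R V ⊗[ℂ] U) :
    asc R' V' U' (TensorProduct.map (pbC f t.toAddMonoidHom ht) u z) =
      pbC f τ.toAddMonoidHom hτ (asc R V U z) := by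
  induction z using asc_ind with
  | zero => simp only [map_zero]
  | tmul w p x =>
    exact congrArg (Om.pb f w ⊗ₜ[R'] ·) (h p x).symm
  | add x y hx hy => simp only [map_add, hx, hy]

end Gen

namespace RA

variable {R : Type} [CommRing R] [Algebra ℂ R] {K : DGM R} {A : DGA} (ρ : RA K A) (b : DB ℂ R)

/-- The sign operator of the de Rham complex. -/
def sgD : Sg (drO b K) := Sg.dr b K ρ.sgR ρ.sg_sg ρ.sg_d ρ.sg_gr ρ.sg_act

theorem sgD_tmul (w : Om ℂ R) (p : K.M.V) :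
    (ρ.sgD b).s (w ⊗ₜ[R] p) = Om.sg w ⊗ₜ[R] ρ.sg p := rfl

/-- The right action on the de Rham complex. -/
def raD : A.R →ₗ[ℂ] DR ℂ R K.M.V →ₗ[ℂ] DR ℂ R K.M.V where
  toFun a := lE (ρ.raR a)
  map_add' a a' := LinearMap.ext fun x => by
    rw [show ρ.raR (a + a') = ρ.raR a + ρ.raR a' from
      LinearMap.ext fun p => LinearMap.congr_fun (map_add ρ.ra a a') p]
    exact DGM.lT_add _ _ x
  map_smul' c a := LinearMap.ext fun x => by
    induction x using DR.induction with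
    | zero => simp only [map_zero]
    | tmul w p =>
      change w ⊗ₜ[R] ρ.ra (c • a) p = c • (w ⊗ₜ[R] ρ.ra a p)
      rw [map_smul, LinearMap.smul_apply, ← algebraMap_smul R c, ← smul_tmul, algebraMap_smul,
        smul_tmul']
    | add x y hx hy => simp only [map_add, hx, hy]

theorem raD_tmul (a : A.R) (w : Om ℂ R) (p : K.M.V) :
    ρ.raD a (w ⊗ₜ[R] p) = w ⊗ₜ[R] ρ.ra a p := rfl

theorem raD_smul (a : A.R) (w : Om ℂ R) (x : DR ℂ R K.M.V) :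
    ρ.raD a (w • x) = w • ρ.raD a x := DGM.lT_smul _ w x

theorem raD_mul (a a' : A.R) (x : DR ℂ R K.M.V) : ρ.raD (a * a') x = ρ.raD a' (ρ.raD a x) := by
  induction x using DR.induction with
  | zero => simp only [map_zero]
  | tmul w p => simp only [raD_tmul, ρ.ra_mul]
  | add x y hx hy => simp only [map_add, hx, hy]

theorem raD_leib (a : A.R) (x : DR ℂ R K.M.V) :
    K.D b (ρ.raD a x) = ρ.raD a (K.D b x) + ρ.raD (A.d a) ((ρ.sgD b).s x) := by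
  have h1 : dR b K.C (ρ.raD a x) = ρ.raD a (dR b K.C x) :=
    (DGM.lT_dR b K.C K.C (ρ.raR a) (ρ.ra_act a) x).symm
  rw [DGM.D_apply, DGM.D_apply, map_add, h1, add_assoc]
  refine congrArg _ ?_
  clear h1
  induction x using DR.induction with
  | zero => simp only [map_zero, add_zero]
  | tmul w p =>
    rw [raD_tmul, sgT_tmul, sgT_tmul, sgD_tmul, raD_tmul, raD_tmul, DGM.dA_apply, DGM.dA_apply,
      ρ.leib, tmul_add]
  | add x y hx hy => simp only [map_add, hx, hy]; abel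

theorem sg_raD (a : A.R) (x : DR ℂ R K.M.V) :
    (ρ.sgD b).s (ρ.raD a x) = ρ.raD (A.sg a) ((ρ.sgD b).s x) := by
  induction x using DR.induction with
  | zero => simp only [map_zero]
  | tmul w p => rw [raD_tmul, sgD_tmul, sgD_tmul, raD_tmul, ρ.sg_ra]
  | add x y hx hy => simp only [map_add, hx, hy]

theorem raD_gr (m i : ℤ) (x : DR ℂ R K.M.V) (a : A.R) (hx : x ∈ K.gr m) (ha : a ∈ A.gr i) :
    ρ.raD a x ∈ K.gr (m + i) := by
  induction hx using K.gr_ind with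
  | zero => rw [map_zero]; exact zero_mem _
  | tmul p j h w hw x hx => exact K.tmul_mem (by omega) hw (ρ.ra_gr j i x a hx ha)
  | add x y _ _ hx hy => rw [map_add]; exact add_mem hx hy

/-- The de Rham complex as a right module. -/
abbrev dr : RM A where
  toGD := DGM.DRg b K
  sg := (ρ.sgD b).s
  sg_sg := (ρ.sgD b).s_s
  sg_d := (ρ.sgD b).s_d
  sg_gr := (ρ.sgD b).s_gr
  ra := ρ.raD
  ra_mul := ρ.raD_mul
  leib := ρ.raD_leib b
  sg_ra := ρ.sg_raD b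
  ra_gr := ρ.raD_gr

theorem ssz_dr (n : ℤ) (w : Om ℂ R) (p : K.M.V) :
    ssz (ρ.dr b).toSGD n (w ⊗ₜ[R] p) = Om.sgz n w ⊗ₜ[R] ssz ρ.rm.toSGD n p := by
  by_cases hn : Even n
  · rw [P286EK.ssz_even hn, P286EK.ssz_even hn, Om.sgz_even hn]
  · rw [P286EK.ssz_odd hn, P286EK.ssz_odd hn, Om.sgz_odd hn]
    rfl

variable (N : P286EK.DGM A)

theorem asc_nab (p : K.M.V) (x : (UU N).V) :
    asc R K.M.V (UU N).V (nab b K.C p ⊗ₜ[ℂ] x) = nab b (ρ.barK N).C (p ⊗ₜ[ℂ] x) := by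
  rw [nab_apply, nab_apply, sum_tmul, map_sum]
  rfl

theorem asc_nu (w : Om ℂ R) (p : K.M.V) (x : (UU N).V) :
    asc R K.M.V (UU N).V (P286EK.nu (ρ.dr b) N ((w ⊗ₜ[R] p) ⊗ₜ[ℂ] x)) =
      Om.sg w ⊗ₜ[R] P286EK.nu ρ.rm N (p ⊗ₜ[ℂ] x) := by
  induction x using P286EK.U0.ind with
  | base n =>
    exact ((congrArg _ (P286EK.nu_i0 (ρ.dr b) N _ n)).trans (map_zero _)).trans
      ((congrArg _ (P286EK.nu_i0 ρ.rm N p n)).trans (tmul_zero _ _)).symm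
  | step a x _ =>
    exact (congrArg _ (P286EK.nu_σ (ρ.dr b) N _ a x)).trans
      (congrArg (Om.sg w ⊗ₜ[R] ·) (P286EK.nu_σ ρ.rm N p a x)).symm
  | add x y hx hy => simp only [tmul_add, map_add, hx, hy]

theorem asc_D (z : DR ℂ R K.M.V ⊗[ℂ] (UU N).V) : asc R K.M.V (UU N).V (bD (ρ.dr b) N z) =
    (ρ.barK N).D b (asc R K.M.V (UU N).V z) := by
  induction z using asc_ind with
  | zero => simp only [map_zero]
  | add x y hx hy => simp only [map_add, hx, hy]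
  | tmul w p x =>
    have e1 : bD (ρ.dr b) N ((w ⊗ₜ[R] p) ⊗ₜ[ℂ] x) =
        (Om.d w ⊗ₜ[R] p + Om.sg w • nab b K.C p + Om.sg w ⊗ₜ[R] K.M.d p) ⊗ₜ[ℂ] x +
        (Om.sg w ⊗ₜ[R] ρ.sg p) ⊗ₜ[ℂ] (UU N).d x + ((Om.sg w ⊗ₜ[R] ρ.sg p) ⊗ₜ[ℂ] P286EK.ub N x -
          P286EK.nu (ρ.dr b) N ((w ⊗ₜ[R] p) ⊗ₜ[ℂ] x)) := rfl
    have e2 : (ρ.barK N).D b (w ⊗ₜ[R] (p ⊗ₜ[ℂ] x)) = Om.d w ⊗ₜ[R] (p ⊗ₜ[ℂ] x) +
        Om.sg w • nab b (ρ.barK N).C (p ⊗ₜ[ℂ] x) + Om.sg w ⊗ₜ[R] (K.M.d p ⊗ₜ[ℂ] x +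
          ρ.sg p ⊗ₜ[ℂ] (UU N).d x + (ρ.sg p ⊗ₜ[ℂ] P286EK.ub N x -
            P286EK.nu ρ.rm N (p ⊗ₜ[ℂ] x))) := rfl
    rw [asc_tmul, e1, e2, ← asc_nab, ← (asc R K.M.V (UU N).V).map_smul, smul_tmul']
    simp only [add_tmul, map_add, map_sub, asc_tmul, tmul_add, tmul_sub]
    rw [← ρ.asc_nu b N w p x]
    abel

theorem asc_mem {m : ℤ} {z : DR ℂ R K.M.V ⊗[ℂ] (UU N).V} (hz : z ∈ tgr (DGM.DRg b K) (UU N) m) :
    asc R K.M.V (UU N).V z ∈ (ρ.barK N).gr m :=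
  tgr_le (E := DGM.DRg b K) (F := UU N) (P := ((ρ.barK N).gr m).comap (ascC R K.M.V (UU N).V))
    (fun i j q x h hq hx => by
      change asc R K.M.V (UU N).V (q ⊗ₜ[ℂ] x) ∈ (ρ.barK N).gr m
      induction hq using K.gr_ind with
      | zero => rw [zero_tmul, map_zero]; exact zero_mem _
      | tmul p k h' w hw y hy =>
        exact (ρ.barK N).tmul_mem (i := k + j) (by omega) hw (tmul_mem (E := K.M) rfl hy hx)
      | add x y _ _ hx hy => rw [add_tmul, map_add]; exact add_mem hx hy) hz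

theorem asc_symm_mem {m : ℤ} {z : DR ℂ R (K.M.V ⊗[ℂ] (UU N).V)} (hz : z ∈ (ρ.barK N).gr m) :
    (asc R K.M.V (UU N).V).symm z ∈ tgr (DGM.DRg b K) (UU N) m := by
  induction hz using (ρ.barK N).gr_ind with
  | zero => rw [map_zero]; exact zero_mem _
  | add x y _ _ hx hy => rw [map_add]; exact add_mem hx hy
  | tmul p k h w hw y hy =>
    exact map_tgr (E := K.M) (F := UU N) (E' := DGM.DRg b K) (F' := UU N)
      ((ascI R K.M.V (UU N).V).comp ((TensorProduct.mk R _ _ w).restrictScalars ℂ))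
      (fun i j q x h' hq hx => tmul_mem (E := DGM.DRg b K) (i := p + i) (by omega)
        (K.tmul_mem rfl hw hq) hx) hy

/-- The isomorphism from the bar construction of the de Rham complex. -/
def ascH : GD.Hom (Bar (ρ.dr b) N) (DGM.DRg b (ρ.barK N)) where
  f := ascC R K.M.V (UU N).V
  comm := ρ.asc_D b N
  deg _ _ hz := ρ.asc_mem b N hz

/-- The inverse isomorphism. -/
def ascG : GD.Hom (DGM.DRg b (ρ.barK N)) (Bar (ρ.dr b) N) where
  f := ascI R K.M.V (UU N).V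
  comm z := (asc R K.M.V (UU N).V).injective (((LinearEquiv.apply_symm_apply _ _).trans
    (congrArg _ (LinearEquiv.apply_symm_apply _ z).symm)).trans (ρ.asc_D b N _).symm)
  deg _ _ hz := ρ.asc_symm_mem b N hz

theorem ascH_f (z : DR ℂ R K.M.V ⊗[ℂ] (UU N).V) :
    (ρ.ascH b N).f z = asc R K.M.V (UU N).V z := rfl

theorem ascG_f (z : DR ℂ R (K.M.V ⊗[ℂ] (UU N).V)) :
    (ρ.ascG b N).f z = (asc R K.M.V (UU N).V).symm z := rfl

/-- The evaluation of a balanced pairing. -/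
def evD {M : GD} (β : DR ℂ R K.M.V →ₗ[ℂ] N.V →ₗ[ℂ] M.V)
    (hb : ∀ a q n, β (ρ.raD a q) n = β q (N.act a n))
    (hd : ∀ q n, M.d (β q n) = β (K.D b q) n + β ((ρ.sgD b).s q) (N.d n))
    (hg : ∀ i j q n, q ∈ K.gr i → n ∈ N.gr j → β q n ∈ M.gr (i + j)) :
    GD.Hom (DGM.DRg b (ρ.barK N)) M :=
  (P286EK.ev (P := ρ.dr b) β hb hd hg).comp (ρ.ascG b N)

theorem evD_tmul {M : GD} (β : DR ℂ R K.M.V →ₗ[ℂ] N.V →ₗ[ℂ] M.V) (hb hd hg) (w : Om ℂ R)
    (p : K.M.V) (x : (UU N).V) : (ρ.evD b N β hb hd hg).f (w ⊗ₜ[R] (p ⊗ₜ[ℂ] x)) =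
      β (w ⊗ₜ[R] p) (P286EK.U0.p0 A N.toGD x) := rfl

theorem evD_asc {M : GD} (β : DR ℂ R K.M.V →ₗ[ℂ] N.V →ₗ[ℂ] M.V) (hb hd hg) (q : DR ℂ R K.M.V)
    (x : (UU N).V) : (ρ.evD b N β hb hd hg).f (asc R K.M.V (UU N).V (q ⊗ₜ[ℂ] x)) =
      β q (P286EK.U0.p0 A N.toGD x) :=
  congrArg (P286EK.evL (P := ρ.dr b) N β) ((asc R K.M.V (UU N).V).symm_apply_apply _)

end RA

variable {T : TSite} {S : GS T} {I : Type u} [Category.{v} I]

namespace BD

variable {ix : T.C ⥤ I} {A : DD I} (B : BD S ix A) (N : DM A) {X Y : T.C}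

/-- The associativity isomorphism over `X`. -/
def as (X : T.C) : B.P.V X ⊗[ℂ] (UU (N.M (ix.obj X))).V ≃ₗ[Om ℂ (T.R X)] (B.barH N).V X :=
  asc (T.R X) (B.P.K X).M.V (UU (N.M (ix.obj X))).V

theorem as_tmul (w : Om ℂ (T.R X)) (p : (B.P.K X).M.V) (x : (UU (N.M (ix.obj X))).V) :
    B.as N X ((w ⊗ₜ[T.R X] p) ⊗ₜ[ℂ] x) = w ⊗ₜ[T.R X] (p ⊗ₜ[ℂ] x) := rfl

theorem as_E (φ : X ⟶ Y) (z : B.P.V Y ⊗[ℂ] (UU (N.M (ix.obj Y))).V) :
    B.as N Y ((B.P.E φ).rTensor _ z) = (B.barH N).E φ (B.as N Y z) := asc_eE _ _ z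

theorem as_P (φ : X ⟶ Y) (z : B.P.V X ⊗[ℂ] (UU (N.M (ix.obj X))).V) :
    B.as N Y (TensorProduct.map (B.P.P φ) (ut N (ix.map φ)) z) = (B.barH N).P φ (B.as N X z) :=
  asc_pbC (T.f φ) (B.P.t φ).f (B.P.t_smul φ) _ (B.bt N φ).f ((B.barH N).t_smul φ)
    (B.bt_tmul N φ) z

theorem as_gt (φ : X ⟶ Y) (q : B.P.V X) (x : (UU (N.M (ix.obj X))).V) :
    (B.barH N).gt φ (B.as N X (q ⊗ₜ[ℂ] x)) = B.as N Y (B.P.gt φ q ⊗ₜ[ℂ] ut N (ix.map φ) x) := by
  rw [HG.gt_apply, ← as_P, ← as_E]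
  rfl

theorem gt_raD (φ : X ⟶ Y) (a : (A.A (ix.obj X)).R) (q : B.P.V X) :
    B.P.gt φ ((B.ρ X).raD a q) = (B.ρ Y).raD ((A.τ (ix.map φ)).f a) (B.P.gt φ q) := by
  have h1 : B.P.P φ ((B.ρ X).raD a q) = (B.ρ Y).raD ((A.τ (ix.map φ)).f a) (B.P.P φ q) := by
    induction q using DR.induction with
    | zero => simp only [map_zero]
    | tmul w p => rw [RA.raD_tmul, HG.P_tmul, HG.P_tmul, RA.raD_tmul, B.t_ra]
    | add x y hx hy => simp only [map_add, hx, hy]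
  rw [HG.gt_apply, HG.gt_apply, h1]
  refine (Gau.ex_inter ((B.ρ Y).raD _) (fun x => ?_) _).symm
  simp only [nE_apply, map_sum, RA.raD_smul]
  exact Finset.sum_congr rfl fun c _ => congrArg _
    (DGM.lT_sgT _ _ _ _ (fun p => (B.ra_i Y c _ p).symm) x)

theorem gt_sgD (φ : X ⟶ Y) (q : B.P.V X) :
    B.P.gt φ (((B.ρ X).sgD (bT T X)).s q) = ((B.ρ Y).sgD (bT T Y)).s (B.P.gt φ q) := by
  have h1 : B.P.P φ (((B.ρ X).sgD (bT T X)).s q) = ((B.ρ Y).sgD (bT T Y)).s (B.P.P φ q) :=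
    pbT_sgT _ _ (B.P.t_smul φ) _ (B.P.t_smul φ) (B.ρ X).sgR (B.ρ Y).sgR (B.t_sg φ) q
  have h2 : ∀ x : B.P.V Y, ((B.ρ Y).sgD (bT T Y)).s x = szT 1 (B.ρ Y).sgR x := fun x => by
    induction x using DR.induction with
    | zero => simp only [map_zero]
    | tmul w p => rw [RA.sgD_tmul, szT_tmul, Om.sgz_odd (by decide)]; rfl
    | add x y hx hy => simp only [map_add, hx, hy]
  rw [HG.gt_apply, HG.gt_apply, h1, h2, h2]
  exact (szT_eE (S.θ_mem φ) 1 _ _ (fun a p => (B.sg_i Y a p).trans (by simp; rfl)) _).symm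

variable {N} {N' : DM A}

theorem as_szT {n : ℤ} (z : DM.Coch N N' n) (q : B.P.V X) (x : (UU (N.M (ix.obj X))).V) :
    szT n (HG.lin (B.bcL N N' n z) X) (B.as N X (q ⊗ₜ[ℂ] x)) =
      B.as N' X (ssz ((B.ρ X).dr (bT T X)).toSGD n q ⊗ₜ[ℂ] uc z (ix.obj X) x) := by
  induction q using DR.induction with
  | zero => simp only [zero_tmul, map_zero]
  | tmul w p => rw [RA.ssz_dr]; rfl
  | add x y hx hy => rw [add_tmul, map_add, map_add, hx, hy, map_add, add_tmul, map_add]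

theorem as_bc {n : ℤ} (z : DM.Coch N N' n) (q : B.P.V X) (x : (UU (N.M (ix.obj X))).V) :
    (HG.gauC (B.bcL N N' n z)).1 X (B.as N X (q ⊗ₜ[ℂ] x)) =
      B.as N' X (ssz ((B.ρ X).dr (bT T X)).toSGD n q ⊗ₜ[ℂ] uc z (ix.obj X) x) := B.as_szT z q x

end BD

end

end Vale.Agent.P286EX
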