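import Vale.Agent.P286EX.Spec
import Vale.Agent.P286EK.Mor

/-!
# The bar construction as a complex of `D`-modules
-/

set_option linter.all false

namespace Vale.Agent.P286EX

open CategoryTheory TensorProduct Vale.Agent.P286 Vale.Agent.P286.St Vale.Agent.P286.H847
  Vale.Agent.P286.H847.SGD Vale.Agent.P286.H353 Vale.Agent.P286.H710 Vale.Agent.P286.H697
open Vale.Agent.P286EK (DGA NHom AHom RM DD DM mdc mqis mh mo Bar UU bm bh bD RHom ssz)

noncomputable section

section Gen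

variable {R R' V V' U U' : Type} [CommRing R] [Algebra ℂ R] [CommRing R'] [Algebra ℂ R']
  [AddCommGroup V] [Module ℂ V] [Module R V] [IsScalarTower ℂ R V]
  [AddCommGroup V'] [Module ℂ V'] [Module R' V'] [IsScalarTower ℂ R' V']
  [AddCommGroup U] [Module ℂ U] [AddCommGroup U'] [Module ℂ U']

/-- An operator on the left factor. -/
def lfT (U : Type) [AddCommGroup U] [Module ℂ U] (s : V →ₗ[R] V) : V ⊗[ℂ] U →ₗ[R] V ⊗[ℂ] U :=
  AlgebraTensorModule.rTensor ℂ U s

theorem lfT_tmul (s : V →ₗ[R] V) (p : V) (x : U) : lfT U s (p ⊗ₜ[ℂ] x) = s p ⊗ₜ[ℂ] x := rfl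

theorem lfT_comm {s : V →ₗ[R] V} {a : V →ₗ[ℂ] V} (h : ∀ x, s (a x) = a (s x)) (z : V ⊗[ℂ] U) :
    lfT U s (a.rTensor U z) = a.rTensor U (lfT U s z) := by
  induction z using TensorProduct.induction_on with
  | zero => simp only [map_zero]
  | tmul p x => simp only [lfT_tmul, LinearMap.rTensor_tmul, h]
  | add x y hx hy => simp only [map_add, hx, hy]

theorem lfT_anti {s s' : V →ₗ[R] V} (h : ∀ x, s (s' x) = - s' (s x)) (z : V ⊗[ℂ] U) :
    lfT U s (lfT U s' z) = - lfT U s' (lfT U s z) := by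
  induction z using TensorProduct.induction_on with
  | zero => simp only [map_zero, neg_zero]
  | tmul p x => rw [lfT_tmul, lfT_tmul, lfT_tmul, lfT_tmul, h, neg_tmul]
  | add x y hx hy => simp only [map_add, hx, hy, neg_add]

theorem lfT_br {l s : V →ₗ[R] V} {c : Fin 3 → ℂ} {i : Fin 3 → V →ₗ[R] V}
    (h : ∀ x, l (s x) - s (l x) = ∑ k, c k • i k x) (z : V ⊗[ℂ] U) :
    lfT U l (lfT U s z) - lfT U s (lfT U l z) = ∑ k, c k • lfT U (i k) z := by
  induction z using TensorProduct.induction_on with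
  | zero => simp only [map_zero, sub_zero, smul_zero, Finset.sum_const_zero]
  | tmul p x =>
    simp only [lfT_tmul, smul_tmul']
    rw [← sub_tmul, h, sum_tmul]
  | add x y hx hy =>
    simp only [map_add, smul_add, Finset.sum_add_distrib, ← hx, ← hy]
    abel

theorem tmb_smul {t : V →ₗ[ℂ] V'} (u : U →ₗ[ℂ] U') {a : R} {a' : R'}
    (h : ∀ x, t (a • x) = a' • t x) (z : V ⊗[ℂ] U) :
    TensorProduct.map t u (a • z) = a' • TensorProduct.map t u z := by
  induction z using TensorProduct.induction_on with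
  | zero => simp only [smul_zero, map_zero]
  | tmul p x => simp only [smul_tmul', map_tmul, h]
  | add x y hx hy => simp only [smul_add, map_add, hx, hy]

theorem tmb_rT {t : V →ₗ[ℂ] V'} (u : U →ₗ[ℂ] U') {s : V →ₗ[ℂ] V} {s' : V' →ₗ[ℂ] V'} {k : ℤ}
    (h : ∀ x, t (s x) = k • s' (t x)) (z : V ⊗[ℂ] U) :
    TensorProduct.map t u (s.rTensor U z) = k • s'.rTensor U' (TensorProduct.map t u z) := by
  induction z using TensorProduct.induction_on with
  | zero => simp only [map_zero, smul_zero]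
  | tmul p x => simp only [LinearMap.rTensor_tmul, map_tmul, h, smul_tmul']
  | add x y hx hy => simp only [map_add, hx, hy, smul_add]

theorem tmb_i {t : V →ₗ[ℂ] V'} (u : U →ₗ[ℂ] U') {s : V →ₗ[R] V} {c : Fin 3 → R'}
    {i : Fin 3 → V' →ₗ[R'] V'} (h : ∀ x, t (s x) = ∑ a, c a • i a (t x)) (z : V ⊗[ℂ] U) :
    TensorProduct.map t u (lfT U s z) = ∑ a, c a • lfT U' (i a) (TensorProduct.map t u z) := by
  induction z using TensorProduct.induction_on with
  | zero => simp only [map_zero, smul_zero, Finset.sum_const_zero]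
  | tmul p x => simp only [lfT_tmul, map_tmul, h, sum_tmul, smul_tmul']
  | add x y hx hy => simp only [map_add, hx, hy, smul_add, Finset.sum_add_distrib]

theorem tmb_act {t : V →ₗ[ℂ] V'} (u : U →ₗ[ℂ] U') {w : V' →ₗ[ℂ] V'} {n : ℕ} {c : Fin n → R'}
    {v : Fin n → V →ₗ[ℂ] V} {e : R'} {θ : Fin 3 → R'} {l : Fin 3 → V' →ₗ[R'] V'}
    (h : ∀ x, w (t x) = ∑ k, c k • t (v k x) - e • t x + ∑ a, θ a • l a (t x)) (z : V ⊗[ℂ] U) :
    w.rTensor U' (TensorProduct.map t u z) =
      ∑ k, c k • TensorProduct.map t u ((v k).rTensor U z) - e • TensorProduct.map t u z +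
        ∑ a, θ a • lfT U' (l a) (TensorProduct.map t u z) := by
  induction z using TensorProduct.induction_on with
  | zero => simp only [map_zero, smul_zero, Finset.sum_const_zero, sub_zero, add_zero]
  | tmul p x =>
    simp only [lfT_tmul, map_tmul, LinearMap.rTensor_tmul, h, add_tmul, sub_tmul, sum_tmul,
      smul_tmul']
  | add x y hx hy =>
    simp only [map_add, hx, hy, smul_add, Finset.sum_add_distrib]
    abel

end Gen

section Pt

variable {R : Type} [CommRing R] [Algebra ℂ R]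

/-- A right action of a DG algebra on a complex of `D`-modules; `ra a p` is the product `p a`. -/
structure RA (K : DGM R) (A : DGA) where
  sg : K.M.V →ₗ[ℂ] K.M.V
  sg_gr : ∀ (m : ℤ) (x : K.M.V), x ∈ K.M.gr m → sg x = (m.negOnePow : ℤ) • x
  int : DirectSum.IsInternal K.M.gr
  ra : A.R →ₗ[ℂ] K.M.V →ₗ[ℂ] K.M.V
  ra_mul : ∀ a b p, ra (a * b) p = ra b (ra a p)
  leib : ∀ a p, K.M.d (ra a p) = ra a (K.M.d p) + ra (A.d a) (sg p)
  ra_gr : ∀ (m i : ℤ) (p : K.M.V) (a : A.R), p ∈ K.M.gr m → a ∈ A.gr i → ra a p ∈ K.M.gr (m + i)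
  ra_smul : ∀ a (r : R) p, ra a (r • p) = r • ra a p
  ra_act : ∀ a v p, ra a (K.C.act v p) = K.C.act v (ra a p)

namespace RA

variable {K : DGM R} {A : DGA} (ρ : RA K A)

include ρ in
theorem ind {Q : K.M.V → Prop} (zero : Q 0) (hom : ∀ m, ∀ x ∈ K.M.gr m, Q x)
    (add : ∀ x y, Q x → Q y → Q (x + y)) (x : K.M.V) : Q x :=
  Prj.ind (iSup_of_internal ρ.int) zero hom add x

/-- Maps of degree `k` commute with the signs up to `(-1) ^ k`. -/
theorem sg_deg {R' : Type} [CommRing R'] [Algebra ℂ R'] {K' : DGM R'} {A' : DGA} (ρ' : RA K' A')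
    (s : K.M.V →ₗ[ℂ] K'.M.V) (k : ℤ) (hs : ∀ m, ∀ x ∈ K.M.gr m, s x ∈ K'.M.gr (m + k))
    (x : K.M.V) : ρ'.sg (s x) = (k.negOnePow : ℤ) • s (ρ.sg x) := by
  induction x using ρ.ind with
  | zero => simp
  | hom m x hx =>
    rw [ρ'.sg_gr _ _ (hs m x hx), ρ.sg_gr m x hx, map_zsmul, smul_smul, P286EK.neg1_add, mul_comm]
  | add x y hx hy => simp only [map_add, hx, hy, smul_add]

theorem sg_zero {R' : Type} [CommRing R'] [Algebra ℂ R'] {K' : DGM R'} {A' : DGA} (ρ' : RA K' A')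
    (s : K.M.V →ₗ[ℂ] K'.M.V) (hs : ∀ m, ∀ x ∈ K.M.gr m, s x ∈ K'.M.gr m)
    (x : K.M.V) : ρ'.sg (s x) = s (ρ.sg x) := by
  rw [ρ.sg_deg ρ' s 0 (fun m x hx => by simpa using hs m x hx)]
  simp

theorem sg_sg (x : K.M.V) : ρ.sg (ρ.sg x) = x := by
  induction x using ρ.ind with
  | zero => simp
  | hom m x hx =>
    rw [ρ.sg_gr m x hx, map_zsmul, ρ.sg_gr m x hx, smul_smul, P286EK.neg1_sq, one_smul]
  | add x y hx hy => simp only [map_add, hx, hy]

theorem sg_d (x : K.M.V) : ρ.sg (K.M.d x) = - K.M.d (ρ.sg x) := by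
  rw [ρ.sg_deg ρ K.M.d 1 K.M.dgr]
  simp

theorem sg_smul (r : R) (x : K.M.V) : ρ.sg (r • x) = r • ρ.sg x :=
  ρ.sg_zero ρ ((LinearMap.lsmul R K.M.V r).restrictScalars ℂ) (fun m x hx => K.gr_smul m r x hx) x

theorem sg_act (v : Derivation ℂ R R) (x : K.M.V) : ρ.sg (K.C.act v x) = K.C.act v (ρ.sg x) :=
  ρ.sg_zero ρ (actL K v) (fun m x hx => K.gr_act m v x hx) x

theorem sg_ra (a : A.R) (p : K.M.V) : ρ.sg (ρ.ra a p) = ρ.ra (A.sg a) (ρ.sg p) := by
  induction a using A.ind with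
  | zero => simp
  | hom i a ha =>
    rw [ρ.sg_deg ρ (ρ.ra a) i (fun m x hx => ρ.ra_gr m i x a hx ha), A.sg_gr i a ha, map_zsmul,
      LinearMap.smul_apply]
  | add a b ha hb => simp only [map_add, LinearMap.add_apply, ha, hb]

/-- The sign as an `R`-linear map. -/
def sgR : K.M.V →ₗ[R] K.M.V where
  toFun := ρ.sg
  map_add' := map_add _
  map_smul' := ρ.sg_smul

theorem sgR_apply (x : K.M.V) : ρ.sgR x = ρ.sg x := rfl

/-- The right action as an `R`-linear map. -/
def raR (a : A.R) : K.M.V →ₗ[R] K.M.V where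
  toFun := ρ.ra a
  map_add' := map_add _
  map_smul' := ρ.ra_smul a

theorem raR_apply (a : A.R) (x : K.M.V) : ρ.raR a x = ρ.ra a x := rfl

/-- The right module. -/
abbrev rm : RM A where
  toGD := K.M
  sg := ρ.sg
  sg_sg := ρ.sg_sg
  sg_d := ρ.sg_d
  sg_gr := ρ.sg_gr
  ra := ρ.ra
  ra_mul := ρ.ra_mul
  leib := ρ.leib
  sg_ra := ρ.sg_ra
  ra_gr := ρ.ra_gr

theorem ssz_deg (s : K.M.V →ₗ[ℂ] K.M.V) (h : ∀ x, ρ.sg (s x) = s (ρ.sg x)) (n : ℤ) (x : K.M.V) :
    ssz ρ.rm.toSGD n (s x) = s (ssz ρ.rm.toSGD n x) :=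
  (P286EK.ssz_comm (E := ρ.rm.toSGD) (E' := ρ.rm.toSGD) (f := s) (fun p => (h p).symm) n x).symm

theorem ssz_odd' (s : K.M.V →ₗ[ℂ] K.M.V) (h : ∀ x, ρ.sg (s x) = - s (ρ.sg x)) (n : ℤ)
    (x : K.M.V) : ssz ρ.rm.toSGD n (s x) = (n.negOnePow : ℤ) • s (ssz ρ.rm.toSGD n x) := by
  by_cases hn : Even n
  · rw [P286EK.ssz_even hn, P286EK.ssz_even hn, Int.negOnePow_even n hn]
    simp
  · rw [P286EK.ssz_odd hn, P286EK.ssz_odd hn, Int.negOnePow_odd n (Int.not_even_iff_odd.1 hn)]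
    simpa using h x

variable (N : P286EK.DGM A)

theorem bD_even (s : K.M.V →ₗ[ℂ] K.M.V) (h : ∀ x, ρ.sg (s x) = s (ρ.sg x))
    (ha : ∀ a p, s (ρ.ra a p) = ρ.ra a (s p)) (hd : ∀ p, K.M.d (s p) = s (K.M.d p))
    (z : K.M.V ⊗[ℂ] (UU N).V) : bD ρ.rm N (s.rTensor _ z) = s.rTensor _ (bD ρ.rm N z) := by
  have h1 := P286EK.bD_rT (P := ρ.rm) (P' := ρ.rm) (N := N) (f := s) (g := s) (f' := 0) h ha
    (fun p => by rw [LinearMap.zero_apply]; exact (sub_eq_zero.2 (hd p)).symm) z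
  rwa [LinearMap.rTensor_zero, LinearMap.zero_apply, zero_add] at h1

theorem smul_eq (r : R) (z : K.M.V ⊗[ℂ] (UU N).V) :
    r • z = ((LinearMap.lsmul R K.M.V r).restrictScalars ℂ).rTensor _ z := by
  induction z using TensorProduct.induction_on with
  | zero => simp
  | tmul p x => rfl
  | add x y hx hy => rw [smul_add, map_add, hx, hy]

theorem rT_mem {s : K.M.V →ₗ[ℂ] K.M.V} {k : ℤ} (hs : ∀ m, ∀ x ∈ K.M.gr m, s x ∈ K.M.gr (m + k))
    {m m' : ℤ} (hm : m' = m + k) {z : K.M.V ⊗[ℂ] (UU N).V} (hz : z ∈ tgr K.M (UU N) m) :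
    s.rTensor _ z ∈ tgr K.M (UU N) m' :=
  map_tgr (E := K.M) (E' := K.M) (F := UU N) (F' := UU N) (s.rTensor _)
    (fun i j p x h hp hx => tmul_mem (by omega) (hs i p hp) hx) hz

/-- The bar construction, as a complex of `D`-modules. -/
abbrev barK : DGM R where
  M := Bar ρ.rm N
  mod := (inferInstance : Module R (K.M.V ⊗[ℂ] (UU N).V))
  tow := (inferInstance : IsScalarTower ℂ R (K.M.V ⊗[ℂ] (UU N).V))
  C :=
    { act := fun v => (actL K v).rTensor (UU N).V
      act_add := fun v => map_add _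
      add_act := fun v w z => by
        rw [show actL K (v + w) = actL K v + actL K w from LinearMap.ext (K.C.add_act v w),
          LinearMap.rTensor_add, LinearMap.add_apply]
      smul_act := fun a v z => by
        induction z using TensorProduct.induction_on with
        | zero => simp
        | tmul p x => simp only [LinearMap.rTensor_tmul, actL_apply, K.C.smul_act, smul_tmul']
        | add x y hx hy => simp only [map_add, hx, hy, smul_add]
      leibniz := fun v a z => by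
        induction z using TensorProduct.induction_on with
        | zero => simp
        | tmul p x =>
          simp only [smul_tmul', LinearMap.rTensor_tmul, actL_apply, K.C.leibniz, add_tmul]
        | add x y hx hy => simp only [map_add, hx, hy, smul_add]; abel
      lie_act := fun v w z => by
        induction z using TensorProduct.induction_on with
        | zero => simp
        | tmul p x => simp only [LinearMap.rTensor_tmul, actL_apply, K.C.lie_act, sub_tmul]
        | add x y hx hy => simp only [map_add, hx, hy]; abel }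
  d_smul a z := ((congrArg (bD ρ.rm N) (smul_eq N a z)).trans (ρ.bD_even N _ (ρ.sg_smul a)
    (fun b p => (ρ.ra_smul b a p).symm) (K.d_smul a) z)).trans (smul_eq N a _).symm
  d_act v z := ρ.bD_even N (actL K v) (ρ.sg_act v) (fun b p => (ρ.ra_act b v p).symm) (K.d_act v) z
  gr_smul m a z hz := by
    have h := rT_mem N (s := (LinearMap.lsmul R K.M.V a).restrictScalars ℂ) (k := 0)
      (fun m x hx => by simpa using K.gr_smul m a x hx) (add_zero m).symm hz
    rwa [← smul_eq] at h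
  gr_act m v z hz := rT_mem N (s := actL K v) (k := 0)
    (fun m x hx => by rw [add_zero]; exact K.gr_act m v x hx) (add_zero m).symm hz

theorem barK_act (v : Derivation ℂ R R) (p : K.M.V) (x : (UU N).V) :
    (ρ.barK N).C.act v (p ⊗ₜ[ℂ] x) = K.C.act v p ⊗ₜ[ℂ] x := rfl

/-- A left operator on the bar construction. -/
def lop (s : K.M.V →ₗ[R] K.M.V) : (ρ.barK N).M.V →ₗ[R] (ρ.barK N).M.V :=
  lfT (UU N).V s

theorem lop_tmul (s : K.M.V →ₗ[R] K.M.V) (p : K.M.V) (x : (UU N).V) :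
    ρ.lop N s (p ⊗ₜ[ℂ] x) = s p ⊗ₜ[ℂ] x := rfl

theorem lop_eq (s : K.M.V →ₗ[R] K.M.V) (z : K.M.V ⊗[ℂ] (UU N).V) :
    ρ.lop N s z = (s.restrictScalars ℂ).rTensor _ z := rfl

theorem lieOp_lop (s : K.M.V →ₗ[R] K.M.V) (h : ∀ x, ρ.sg (s x) = - s (ρ.sg x))
    (ha : ∀ a p, s (ρ.ra a p) = ρ.ra a (s p)) :
    lieOp (ρ.barK N) (ρ.lop N s) = ρ.lop N (lieOp K s) := by
  refine LinearMap.ext fun z => ?_
  have h1 := P286EK.bD_rT (P := ρ.rm) (P' := ρ.rm) (N := N) (f := s.restrictScalars ℂ)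
    (g := - s.restrictScalars ℂ) (f' := (lieOp K s).restrictScalars ℂ) h
    (fun a p => by
      rw [LinearMap.neg_apply, LinearMap.neg_apply, map_neg]
      exact congrArg Neg.neg (ha a p))
    (fun p => by rw [LinearMap.neg_apply, sub_neg_eq_add]; rfl) z
  rw [LinearMap.rTensor_neg, LinearMap.neg_apply] at h1
  exact eq_add_neg_iff_add_eq.1 h1

end RA

end Pt

end

end Vale.Agent.P286EX
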